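import Vale.Agent.P281.H167.RC.Defs
import Vale.Agent.P281.H498.KD.TL

/-! P281, theorem RC: the rows of the proof, as propositions. -/

open scoped Manifold ContDiff Topology ComplexOrder
open Set Filter Vale.Agent.P281.J Vale.Agent.P272.K Vale.Agent.P299
open Vale.Agent.P272.K.INT (IsClosedForm)
open Vale.Agent.P299.D (Ten tenPull FormM)

noncomputable section

namespace Vale.Agent.P281.H167.RC

open Vale.Agent.P281.H167 Vale.Agent.P281.H713 Vale.Agent.P281.H713.SA Vale.Agent.P281.H716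

/-- **Row A**: a meromorphic function on `ℙ¹` with fewer than `2 b` poles, and a zero of order `2 b`
at infinity (up to its poles there), vanishes. -/
def LioPart : Prop := ∀ (h h' : ℂ → ℂ) (Q : Finset ℂ) (o : ℂ → ℕ) (o' b : ℕ),
  (∀ t, t ∉ Q → o t = 0) →
  (∀ t, ∃ φ : ℂ → ℂ, AnalyticAt ℂ φ t ∧
    ∀ᶠ s in 𝓝 t, (o t = 0 ∨ s ≠ t) → h s * (s - t) ^ o t = φ s) →
  (∃ φ : ℂ → ℂ, AnalyticAt ℂ φ 0 ∧ ∀ᶠ s in 𝓝 (0 : ℂ), s ≠ 0 → h' s * s ^ o' = φ s) →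
  (∀ᶠ s in 𝓝 (0 : ℂ), s ≠ 0 → h s⁻¹ = (-(s ^ 2)) ^ b * h' s) →
  ∑ t ∈ Q, o t + o' < 2 * b → o 0 = 0 → h 0 = 0

/-- the value of a covariant tensor on vectors -/
def tev {n Q : ℕ} (a : (Fin Q → Fin n) → ℂ) (W : Fin Q → Cm n) : ℂ := ∑ I, a I * ∏ s, W s (I s)

/-- **Row B**: along the rational curve `c (t, 0)`, a tensor with poles `≤ μ Δ` vanishes on the vectors
`∂c/∂t` (at least `μ > 0` of them) and derivatives of `c` in the directions `u`. -/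
def CurvePart : Prop := ∀ (n q Q μ : ℕ) (X : Type) [TopologicalSpace X] [T2Space X]
  [ChartedSpace (Cm n) X] [IsManifold 𝓘(ℂ, Cm n) ω X]
  (Δ : Set X → ℝ) (_ : IsSNC (Cm n) Δ) (K : Set X → ℕ) (_ : ∀ D, (K D : ℝ) = μ * Δ D)
  (τ : Ten n Q X) (_ : IsTenP Q K τ) (_ : 0 < μ)
  (c c' : ℂ × Cm q → X) (_ : IsRatCurve n q Δ c c') (_ : ∀ D, Δ D ≠ 0 → c (0, 0) ∉ D)
  (w : Fin Q → ℂ × Cm q) (_ : ∀ s, w s = (1, 0) ∨ (w s).1 = 0)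
  (_ : μ ≤ Nat.card {s // w s = (1, 0)}) (e : Chart n X) (_ : At e (c (0, 0))),
  tev (τ e (e (c (0, 0)))) (fun s => fderiv ℂ (fun a => e (c a)) (0, 0) (w s)) = 0

/-- **Row C**: where the section `σ` does not vanish, and if the family of curves dominates `Y` (to
first order), the curve `c (t, 0)` is tangent to the fibre of `f`. -/
def KerPart : Prop := ∀ (n p q m : ℕ) (X Z Y : Type) [TopologicalSpace X] [T2Space X]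
  [ChartedSpace (Cm n) X] [IsManifold 𝓘(ℂ, Cm n) ω X]
  [TopologicalSpace Z] [ChartedSpace (Cm n) Z] [IsManifold 𝓘(ℂ, Cm n) ω Z]
  [TopologicalSpace Y] [ChartedSpace (Cm p) Y] [IsManifold 𝓘(ℂ, Cm p) ω Y]
  (j : Z → X) (_ : IsBigOpen (Cm n) j) (f : Z → Y) (_ : ContMDiff 𝓘(ℂ, Cm n) 𝓘(ℂ, Cm p) ω f)
  (Δ : Set X → ℝ) (_ : IsSNC (Cm n) Δ) (K : Set X → ℕ) (_ : ∀ D, (K D : ℝ) = m * Δ D)
  (_ : 0 < m) (τ : Ten n (m * p) X) (_ : IsTenP (m * p) K τ)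
  (c c' : ℂ × Cm q → X) (_ : IsRatCurve n q Δ c c') (_ : ∀ D, Δ D ≠ 0 → c (0, 0) ∉ D)
  (z : Z) (_ : c (0, 0) = j z) (s : ℂ) (_ : s ≠ 0)
  (_ : ∀ e, At e (j z) → ∀ I, τ e (e (j z)) I = s * tT f m (fun z => e (j z)) I z)
  (_ : ∀ y : Cm p, ∃ (v : Cm n) (a : ℂ × Cm q), mfderiv 𝓘(ℂ, Cm n) 𝓘(ℂ, Cm p) f z v = y ∧
    mfderiv 𝓘(ℂ, Cm n) 𝓘(ℂ, Cm n) j z v = mfderiv 𝓘(ℂ, ℂ × Cm q) 𝓘(ℂ, Cm n) c (0, 0) a)
  (v : Cm n) (_ : mfderiv 𝓘(ℂ, Cm n) 𝓘(ℂ, Cm n) j z v =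
    mfderiv 𝓘(ℂ, ℂ × Cm q) 𝓘(ℂ, Cm n) c (0, 0) (1, 0)),
  mfderiv 𝓘(ℂ, Cm n) 𝓘(ℂ, Cm p) f z v = 0

/-- the vector `v` (in the chart `e`, at `x`) is in the kernels of `dg`, `[H]`, `β` and of the
differential of `f : Z → Y`, `Z` open in `X` by `j` -/
def KerAt {n : ℕ} (p : ℕ) {X Z Y : Type} [TopologicalSpace X] [ChartedSpace (Cm n) X]
    [TopologicalSpace Z] [ChartedSpace (Cm n) Z] [TopologicalSpace Y] [ChartedSpace (Cm p) Y]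
    (j : Z → X) (f : Z → Y) {N : ℕ} (H : Fin N → X → ℂ) (g : X → ℂ) (β : FormM n X)
    (z : Z) : Prop :=
  g (j z) = 0 ∧ ∃ v w : Cm n, mfderiv 𝓘(ℂ, Cm n) 𝓘(ℂ, Cm n) j z v = w ∧ w ≠ 0 ∧
    dif (Cm n) g (j z) w = 0 ∧ PKer n H (j z) w ∧
    (∀ l, ∑ i, w i * β (chartAt (Cm n) (j z)) (chartAt (Cm n) (j z) (j z)) i l = 0) ∧
    mfderiv 𝓘(ℂ, Cm n) 𝓘(ℂ, Cm p) f z v = 0

/-- **Row D**: closedness of the condition (compactness of the unit sphere). -/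
def ClosPart : Prop := ∀ (n p : ℕ) (X Z Y : Type) [TopologicalSpace X] [T2Space X]
  [ChartedSpace (Cm n) X] [IsManifold 𝓘(ℂ, Cm n) ω X]
  [TopologicalSpace Z] [ChartedSpace (Cm n) Z] [IsManifold 𝓘(ℂ, Cm n) ω Z]
  [TopologicalSpace Y] [ChartedSpace (Cm p) Y] [IsManifold 𝓘(ℂ, Cm p) ω Y]
  (j : Z → X) (_ : IsBigOpen (Cm n) j) (f : Z → Y) (_ : ContMDiff 𝓘(ℂ, Cm n) 𝓘(ℂ, Cm p) ω f)
  (β : FormM n X) (_ : IsClosedForm β) (z : Z) (N : ℕ) (H : Fin N → X → ℂ) (g : X → ℂ)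
  (_ : HolAt (Cm n) g (j z)) (_ : ∀ b, HolAt (Cm n) (H b) (j z))
  (_ : ∃ᶠ z' in 𝓝 z, KerAt p j f H g β z'), KerAt p j f H g β z

/-- **Row D'**: on the hypersurface `g = 0`, transversal to the fibre of `f` at `z`, the points mapped by
`f` to a set `O ⊆ Y` with dense interior are dense. -/
def DensPart : Prop := ∀ (n p : ℕ) (X Z Y : Type) [TopologicalSpace X] [T2Space X]
  [ChartedSpace (Cm n) X] [IsManifold 𝓘(ℂ, Cm n) ω X]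
  [TopologicalSpace Z] [ChartedSpace (Cm n) Z] [IsManifold 𝓘(ℂ, Cm n) ω Z]
  [TopologicalSpace Y] [ChartedSpace (Cm p) Y] [IsManifold 𝓘(ℂ, Cm p) ω Y]
  (j : Z → X) (_ : IsBigOpen (Cm n) j) (f : Z → Y) (_ : ContMDiff 𝓘(ℂ, Cm n) 𝓘(ℂ, Cm p) ω f)
  (g : X → ℂ) (z : Z) (_ : HolAt (Cm n) g (j z)) (_ : g (j z) = 0)
  (_ : ∀ y : Cm p, ∃ v : Cm n, mfderiv 𝓘(ℂ, Cm n) 𝓘(ℂ, Cm p) f z v = y ∧
    dif (Cm n) g (j z) (mfderiv 𝓘(ℂ, Cm n) 𝓘(ℂ, Cm n) j z v) = 0)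
  (_ : dif (Cm n) g (j z) ≠ 0) (O : Set Y) (_ : IsOpen O) (_ : Dense O),
  ∃ᶠ z' in 𝓝 z, g (j z') = 0 ∧ f z' ∈ O

end Vale.Agent.P281.H167.RC
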