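import Vale.Agent.P281.H167.RC.Iface
import Vale.Agent.P281.H498.KL.BrA

/-! P281, theorem RC, row C: the curves are tangent to the fibres. -/

open scoped Manifold ContDiff Topology ComplexOrder
open Set Filter Vale.Agent.P272.K Vale.Agent.P299
open Vale.Agent.P299.D (Ten tenPull FormM)

noncomputable section

namespace Vale.Agent.P281.H167.RC

open Vale.Agent.P281 Vale.Agent.P281.MF Vale.Agent.P281.ISO
open Vale.Agent.P281.H167 Vale.Agent.P281.H713 Vale.Agent.P281.H713.SA Vale.Agent.P281.H716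
open Vale.Agent.P281.H498 (dV_chartAt)

/-- the differential in the preferred chart at the target -/
theorem fderiv_chart {n q : ℕ} {X : Type} [TopologicalSpace X] [ChartedSpace (Cm n) X]
    [IsManifold 𝓘(ℂ, Cm n) ω X] {c : ℂ × Cm q → X} {a : ℂ × Cm q}
    (hc : ContMDiffAt 𝓘(ℂ, ℂ × Cm q) 𝓘(ℂ, Cm n) ω c a) :
    fderiv ℂ (fun b => chartAt (Cm n) (c a) (c b)) a =
      (mfderiv 𝓘(ℂ, ℂ × Cm q) 𝓘(ℂ, Cm n) c a : (ℂ × Cm q) →L[ℂ] Cm n) := by
  have h1 := dV_comp (E := ℂ × Cm q) (E' := Cm n) (h := (chartAt (Cm n) (c a) : X → Cm n)) (f := c)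
    (x := a) (HolV.chart (mem_chart_source _ _)) hc
  rw [dV_chartAt] at h1
  have h2 : dV (ℂ × Cm q) (fun z => chartAt (Cm n) (c a) (c z)) a =
      fderiv ℂ (fun b => chartAt (Cm n) (c a) (c b)) a := by
    unfold dV
    exact mfderiv_eq_fderiv
  rw [← h2, h1]
  exact ContinuousLinearMap.id_comp _

theorem det_ne_of_surj {p : ℕ} {C : Cm p →L[ℂ] Cm p} (hC : Function.Surjective C) : C.det ≠ 0 := by
  have h1 : Function.Bijective (C : Cm p →ₗ[ℂ] Cm p) :=
    ⟨LinearMap.injective_iff_surjective.2 hC, hC⟩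
  have h2 := LinearEquiv.isUnit_det' (LinearEquiv.ofBijective (C : Cm p →ₗ[ℂ] Cm p) h1)
  have h3 : ((LinearEquiv.ofBijective (C : Cm p →ₗ[ℂ] Cm p) h1 : Cm p ≃ₗ[ℂ] Cm p) :
      Cm p →ₗ[ℂ] Cm p) = (C : Cm p →ₗ[ℂ] Cm p) := by
    ext1
    rfl
  rw [h3] at h2
  exact h2.ne_zero

/-- **Row C**. -/
theorem kerPart (hB : CurvePart) : KerPart := by
  classical
  intro n p q m X Z Y _ _ _ _ _ _ _ _ _ _ j hj f hf Δ hΔ K hK hm τ hτ c c' hc hcΔ z hcz s hs hval
    hdom v hv
  by_contra hne
  have hjh : ∀ z, HolM (Cm n) (Cm n) j z := fun z => hj.1 z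
  have hj₂ : ∀ z, Function.Injective (dM (Cm n) (Cm n) j z) := hj.2.2.1
  have hAt : At (chartAt (Cm n) (j z) : Chart n X) (j z) := AMP.at_chartAt (j z)
  set u₁ : Cm p := mfderiv 𝓘(ℂ, Cm n) 𝓘(ℂ, Cm p) f z v with hu₁
  have hu₁0 : u₁ ≠ 0 := hne
  obtain ⟨c₀, hc₀⟩ : ∃ c₀ : Fin p, u₁ c₀ ≠ 0 := by
    by_contra h
    push Not at h
    exact hu₁0 (funext h)
  obtain ⟨A, hA⟩ := SeparatingDual.exists_continuousLinearEquiv_apply_eq (R := ℂ)
    (x := (Pi.single c₀ (1 : ℂ) : Cm p)) (y := u₁) (by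
      intro h0
      have := congrFun h0 c₀
      simp at this) hu₁0
  choose vv aa hva using fun i : Fin p => hdom (A (Pi.single i 1))
  set df : Cm n →L[ℂ] Cm p := mfderiv 𝓘(ℂ, Cm n) 𝓘(ℂ, Cm p) f z with hdf
  set dj : Cm n →L[ℂ] Cm n := mfderiv 𝓘(ℂ, Cm n) 𝓘(ℂ, Cm n) j z with hdj
  set dc : (ℂ × Cm q) →L[ℂ] Cm n := mfderiv 𝓘(ℂ, ℂ × Cm q) 𝓘(ℂ, Cm n) c (0, 0) with hdc
  have hva1 : ∀ i, df (vv i) = A (Pi.single i 1) := fun i => (hva i).1
  have hva2 : ∀ i, dj (vv i) = dc (aa i) := fun i => (hva i).2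
  have hv1 : dj v = dc (1, 0) := hv
  set V : Fin p → Cm n := fun i => if i = c₀ then v else vv i - (aa i).1 • v with hV
  set w₀ : Fin p → ℂ × Cm q := fun i => if i = c₀ then (1, 0) else (0, (aa i).2) with hw₀
  have hVw : ∀ i, dj (V i) = dc (w₀ i) := by
    intro i
    by_cases hi : i = c₀
    · simp only [hV, hw₀, if_pos hi]
      exact hv1
    · simp only [hV, hw₀, if_neg hi]
      rw [map_sub, map_smul, hva2, hv1, ← map_smul, ← map_sub]
      congr 1
      ext
      · simp
      · simp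
  set w : Fin (m * p) → ℂ × Cm q := fun s => w₀ (finProdFinEquiv.symm s).2 with hw
  have hw1 : ∀ s, w s = (1, 0) ∨ (w s).1 = 0 := by
    intro s
    by_cases hi : (finProdFinEquiv.symm s).2 = c₀
    · left
      simp only [hw, hw₀, if_pos hi]
    · right
      simp only [hw, hw₀, if_neg hi]
  have hcard : m ≤ Nat.card {s // w s = (1, 0)} := by
    have h1 : Function.Injective fun r : Fin m =>
        (⟨finProdFinEquiv (r, c₀), by
          show w₀ (finProdFinEquiv.symm (finProdFinEquiv (r, c₀))).2 = (1, 0)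
          rw [Equiv.symm_apply_apply]
          exact if_pos rfl⟩ : {s // w s = (1, 0)}) := by
      intro r r' h
      have h2 := congrArg Subtype.val h
      have h3 := finProdFinEquiv.injective h2
      exact congrArg Prod.fst h3
    have h2 := Nat.card_le_card_of_injective _ h1
    simpa using h2
  have hkey := hB n q (m * p) m X Δ hΔ K hK τ hτ hm c c' hc hcΔ w hw1 hcard
    (chartAt (Cm n) (c (0, 0))) (AMP.at_chartAt _)
  have hfc : fderiv ℂ (fun b => chartAt (Cm n) (c (0, 0)) (c b)) (0, 0) = dc :=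
    fderiv_chart (hc.hol 0)
  rw [hfc] at hkey
  rw [hcz] at hkey
  -- the differential of `j`
  set E : Cm n →L[ℂ] Cm n := dV (Cm n) (fun z' => chartAt (Cm n) (j z) (j z')) z with hEdef
  have hEj : E = dj := by
    have h1 := dV_comp (E := Cm n) (E' := Cm n) (h := (chartAt (Cm n) (j z) : X → Cm n)) (f := j)
      (x := z) (HolV.chart (mem_chart_source _ _)) (hjh z)
    rw [dV_chartAt] at h1
    rw [hEdef, h1]
    ext1 v
    rfl
  have hEu : IsUnit E := isUnit_ej hjh hj₂ hAt
  have hEi : ∀ v, Ring.inverse E (E v) = v := fun v => by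
    have h4 : (Ring.inverse E) * E = 1 := Ring.inverse_mul_cancel _ hEu
    exact congrArg (fun T : Cm n →L[ℂ] Cm n => T v) h4
  set B : Cm p →L[ℂ] Cm n := ∑ i, (ContinuousLinearMap.proj (R := ℂ) (φ := fun _ : Fin p => ℂ) i).smulRight
    (E (V i)) with hBdef
  have hBs : ∀ i, B (Pi.single i 1) = E (V i) := by
    intro i
    simp only [hBdef, ContinuousLinearMap.sum_apply, ContinuousLinearMap.smulRight_apply,
      ContinuousLinearMap.proj_apply]
    rw [Finset.sum_eq_single i]
    · simp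
    · intro k _ hk
      simp [Pi.single_eq_of_ne hk]
    · intro h
      exact absurd (Finset.mem_univ i) h
  set C : Cm p →L[ℂ] Cm p := (df.comp (Ring.inverse E)).comp B with hCdef
  have hCs : ∀ i, C (Pi.single i 1) = df (V i) := by
    intro i
    simp only [hCdef, ContinuousLinearMap.comp_apply, hBs, hEi]
  have htq : tq m C (fun s => (finProdFinEquiv.symm s).2) = 0 := by
    have h1 := tq_comp_right m (df.comp (Ring.inverse E)) B (fun s => (finProdFinEquiv.symm s).2)
    have h2 : tev (τ (chartAt (Cm n) (j z)) (chartAt (Cm n) (j z) (j z))) (fun r => dc (w r)) =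
        s * tq m C (fun s => (finProdFinEquiv.symm s).2) := by
      rw [hCdef, h1, tev, Finset.mul_sum]
      refine Finset.sum_congr rfl fun I _ => ?_
      rw [hval _ hAt I]
      have h3 : ∀ r : Fin (m * p), dc (w r) (I r) =
          B (Pi.single (finProdFinEquiv.symm r).2 1) (I r) := by
        intro r
        rw [hBs, hEj, hVw]
      simp only [h3]
      simp only [tT]
      have h4 : dM (Cm n) (Cm p) f z = df := rfl
      rw [h4, ← hEdef]
      ring
    rw [h2] at hkey
    exact (mul_eq_zero.1 hkey).resolve_left hs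
  have hdet : C.det = 0 := by
    have h1 : tq m C (fun s => (finProdFinEquiv.symm s).2) = C.det ^ m := by
      unfold tq
      have h2 : ∀ r : Fin m, (mK C fun c => (finProdFinEquiv.symm (finProdFinEquiv (r, c))).2).det =
          C.det := by
        intro r
        rw [← det_toMatrix']
        congr 1
        ext a b
        simp [mK, LinearMap.toMatrix'_apply]
      rw [Finset.prod_congr rfl fun r _ => h2 r]
      simp
    rw [h1] at htq
    exact pow_eq_zero_iff (hm.ne') |>.1 htq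
  refine det_ne_of_surj ?_ hdet
  have hmem : ∀ i, ∃ x, C x = A (Pi.single i 1) := by
    intro i
    by_cases hi : i = c₀
    · refine ⟨Pi.single i 1, ?_⟩
      rw [hCs]
      simp only [hV, if_pos hi]
      rw [hi, hA]
      exact hu₁.symm
    · refine ⟨Pi.single i 1 + (aa i).1 • Pi.single c₀ 1, ?_⟩
      rw [map_add, map_smul, hCs, hCs]
      simp only [hV, if_neg hi, if_true]
      rw [map_sub, map_smul, hva1]
      simp
  choose xx hxx using hmem
  intro y
  refine ⟨∑ i, (A.symm y) i • xx i, ?_⟩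
  rw [map_sum]
  simp only [map_smul, hxx]
  have h1 : A.symm y = ∑ i, (A.symm y) i • (Pi.single i (1 : ℂ) : Cm p) := by
    funext k
    simp [Finset.sum_apply, Pi.single_apply]
  calc ∑ i, (A.symm y) i • A (Pi.single i 1) = A (∑ i, (A.symm y) i • (Pi.single i (1 : ℂ) : Cm p)) := by
        rw [map_sum]
        simp only [map_smul]
    _ = A (A.symm y) := by rw [← h1]
    _ = y := A.apply_symm_apply y

end Vale.Agent.P281.H167.RC
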