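import Vale.Agent.P281.H167.RC.E1

/-! P281, theorem RC, row E: the components covered by contracted rational curves are contracted on
the fibre. -/

open scoped Manifold ContDiff Topology ComplexOrder
open Set Filter Vale.Agent.P272.K Vale.Agent.P299
open Vale.Agent.P272.K.INT (IsClosedForm)
open Vale.Agent.P299.D (Ten tenPull FormM)

noncomputable section

namespace Vale.Agent.P281.H167.RC

open Vale.Agent.P281 Vale.Agent.P281.MF Vale.Agent.P281.ISO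
open Vale.Agent.P281.H167 Vale.Agent.P281.H713 Vale.Agent.P281.H713.SA Vale.Agent.P281.H716

variable {n p d : ℕ} {X Z Y F : Type} [TopologicalSpace X] [T2Space X]
  [ChartedSpace (Cm n) X] [IsManifold 𝓘(ℂ, Cm n) ω X]
  [TopologicalSpace Z] [ChartedSpace (Cm n) Z] [IsManifold 𝓘(ℂ, Cm n) ω Z]
  [TopologicalSpace Y] [ChartedSpace (Cm p) Y] [IsManifold 𝓘(ℂ, Cm p) ω Y]
  [TopologicalSpace F] [ChartedSpace (Cm d) F] [IsManifold 𝓘(ℂ, Cm d) ω F]

/-- `f` is submersive and its fibre transversal to `g = 0` -/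
def Trans (n p : ℕ) {X Z Y : Type} [TopologicalSpace X] [ChartedSpace (Cm n) X]
    [TopologicalSpace Z] [ChartedSpace (Cm n) Z] [TopologicalSpace Y] [ChartedSpace (Cm p) Y]
    (j : Z → X) (f : Z → Y) (g : X → ℂ) (z : Z) : Prop :=
  ∀ (y : Cm p) (a : ℂ), ∃ v : Cm n, dM (Cm n) (Cm p) f z v = y ∧
    dif (Cm n) g (j z) (dM (Cm n) (Cm n) j z v) = a

omit [T2Space X] in
theorem trans_iff {j : Z → X} (hj : ∀ z, HolM (Cm n) (Cm n) j z) {f : Z → Y}
    (hf : ∀ z, HolM (Cm n) (Cm p) f z) {g : X → ℂ} {z₀ z : Z} (hg : HolAt (Cm n) g (j z))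
    (hz : f z ∈ (chartAt (Cm p) (f z₀)).source) :
    Trans n p j f g z ↔ Function.Surjective
      (dV (Cm n) (fun z => ((g (j z), chartAt (Cm p) (f z₀) (f z)) : ℂ × Cm p)) z) := by
  set ψ := chartAt (Cm p) (f z₀) with hψ
  have hψh : HolV (Cm p) (ψ : Y → Cm p) (f z) := HolV.chart hz
  have hgj : HolV (Cm n) (fun z => g (j z)) z := HolV.comp hg (hj z)
  have hpf : HolV (Cm n) (fun z => ψ (f z)) z := HolV.comp hψh (hf z)
  have hG : HolV (Cm n) (fun z => ((g (j z), ψ (f z)) : ℂ × Cm p)) z :=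
    ContMDiffAt.prodMk_space hgj hpf
  have h1 : ∀ v, (dV (Cm n) (fun z => ((g (j z), ψ (f z)) : ℂ × Cm p)) z v).1 =
      dif (Cm n) g (j z) (dM (Cm n) (Cm n) j z v) := by
    intro v
    have e1 := dV_comp (E := Cm n) (E' := ℂ × Cm p) (h := (Prod.fst : ℂ × Cm p → ℂ))
      (f := fun z => ((g (j z), ψ (f z)) : ℂ × Cm p)) (x := z)
      (contDiff_fst.contMDiff.contMDiffAt) hG
    have e2 := dV_comp (E := Cm n) (E' := Cm n) (h := g) (f := j) (x := z) hg (hj z)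
    have e3 : dV (ℂ × Cm p) (Prod.fst : ℂ × Cm p → ℂ) (g (j z), ψ (f z)) =
        ContinuousLinearMap.fst ℂ ℂ (Cm p) := by
      unfold dV
      rw [mfderiv_eq_fderiv]
      exact fderiv_fst
    have e4 := congrArg (fun T : Cm n →L[ℂ] ℂ => T v) e1
    rw [e3] at e4
    have e5 := congrArg (fun T : Cm n →L[ℂ] ℂ => T v) e2
    exact e4.symm.trans e5
  have h2 : ∀ v, (dV (Cm n) (fun z => ((g (j z), ψ (f z)) : ℂ × Cm p)) z v).2 =
      dV (Cm p) (ψ : Y → Cm p) (f z) (dM (Cm n) (Cm p) f z v) := by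
    intro v
    have e1 := dV_comp (E := Cm n) (E' := ℂ × Cm p) (h := (Prod.snd : ℂ × Cm p → Cm p))
      (f := fun z => ((g (j z), ψ (f z)) : ℂ × Cm p)) (x := z)
      (contDiff_snd.contMDiff.contMDiffAt) hG
    have e2 := dV_comp (E := Cm n) (E' := Cm p) (h := (ψ : Y → Cm p)) (f := f) (x := z) hψh (hf z)
    have e3 : dV (ℂ × Cm p) (Prod.snd : ℂ × Cm p → Cm p) (g (j z), ψ (f z)) =
        ContinuousLinearMap.snd ℂ ℂ (Cm p) := by
      unfold dV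
      rw [mfderiv_eq_fderiv]
      exact fderiv_snd
    have e4 := congrArg (fun T : Cm n →L[ℂ] Cm p => T v) e1
    rw [e3] at e4
    have e5 := congrArg (fun T : Cm n →L[ℂ] Cm p => T v) e2
    exact e4.symm.trans e5
  have hAt : At (n := p) ψ (f z) := ⟨chart_mem_atlas _ _, hz⟩
  have hu := isUnit_at hAt
  obtain ⟨U, hU⟩ := hu
  have hU1 : ∀ y, (↑U⁻¹ : Cm p →L[ℂ] Cm p) (dV (Cm p) (ψ : Y → Cm p) (f z) y) = y := by
    intro y
    rw [← hU]
    exact congrArg (fun T : Cm p →L[ℂ] Cm p => T y) U.inv_mul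
  have hU2 : ∀ y, dV (Cm p) (ψ : Y → Cm p) (f z) ((↑U⁻¹ : Cm p →L[ℂ] Cm p) y) = y := by
    intro y
    rw [← hU]
    exact congrArg (fun T : Cm p →L[ℂ] Cm p => T y) U.mul_inv
  constructor
  · rintro h ⟨a, y⟩
    obtain ⟨v, hv1, hv2⟩ := h ((↑U⁻¹ : Cm p →L[ℂ] Cm p) y) a
    refine ⟨v, Prod.ext ?_ ?_⟩
    · rw [h1, hv2]
    · rw [h2, hv1, hU2]
  · intro h y a
    obtain ⟨v, hv⟩ := h (a, dV (Cm p) (ψ : Y → Cm p) (f z) y)
    refine ⟨v, ?_, ?_⟩
    · have e1 := h2 v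
      rw [hv] at e1
      have e2 := congrArg (↑U⁻¹ : Cm p →L[ℂ] Cm p) e1
      rw [hU1, hU1] at e2
      exact e2.symm
    · rw [← h1, hv]

omit [T2Space X] in
theorem trans_open {j : Z → X} (hj : ∀ z, HolM (Cm n) (Cm n) j z) {f : Z → Y}
    (hf : ∀ z, HolM (Cm n) (Cm p) f z) {g : X → ℂ} {z₀ : Z} (hg : HolAt (Cm n) g (j z₀))
    (h : Trans n p j f g z₀) : ∀ᶠ z in 𝓝 z₀, Trans n p j f g z := by
  have h0 := (trans_iff hj hf hg (mem_chart_source (Cm p) (f z₀))).1 h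
  have hG : HolV (Cm n) (fun z => ((g (j z), chartAt (Cm p) (f z₀) (f z)) : ℂ × Cm p)) z₀ :=
    ContMDiffAt.prodMk_space (HolV.comp hg (hj z₀) : HolV (Cm n) (fun z => g (j z)) z₀)
      (HolV.comp (HolV.chart (mem_chart_source (Cm p) (f z₀))) (hf z₀))
  have h1 := surj_dV_open hG h0
  have h2 : ∀ᶠ z in 𝓝 z₀, HolAt (Cm n) g (j z) :=
    (hj z₀).continuousAt.eventually (HolV.eventually (E := Cm n) hg)
  have h3 : ∀ᶠ z in 𝓝 z₀, f z ∈ (chartAt (Cm p) (f z₀)).source :=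
    (hf z₀).continuousAt.eventually ((chartAt (Cm p) (f z₀)).open_source.mem_nhds
      (mem_chart_source (Cm p) (f z₀)))
  filter_upwards [h1, h2, h3] with z k1 k2 k3
  exact (trans_iff hj hf k2 k3).2 k1

omit [IsManifold 𝓘(ℂ, Cm n) ω Z] [IsManifold 𝓘(ℂ, Cm p) ω Y] [IsManifold 𝓘(ℂ, Cm d) ω F] in
/-- the kernel of the differential of `f` is the tangent space of the fibre -/
theorem ker_fibre (hn : n = p + d) {f : Z → Y} {i : F → Z}
    (hf : ∀ z, HolM (Cm n) (Cm p) f z) (hi : IsSmoothFibre (Cm n) (Cm p) (Cm d) f i) (t : F)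
    {v : Cm n} (hv : dM (Cm n) (Cm p) f (i t) v = 0) : ∃ ξ : Cm d, dM (Cm d) (Cm n) i t ξ = v := by
  have hih : HolM (Cm d) (Cm n) i t := hi.hol t
  have h0 : ∀ ξ, dM (Cm n) (Cm p) f (i t) (dM (Cm d) (Cm n) i t ξ) = 0 := by
    intro ξ
    have e1 := mfderiv_comp t (I := 𝓘(ℂ, Cm d)) (I' := 𝓘(ℂ, Cm n)) (I'' := 𝓘(ℂ, Cm p))
      (ContMDiffAt.mdifferentiableAt (hf (i t)) (by simp))
      (ContMDiffAt.mdifferentiableAt hih (by simp))
    have e2 : f ∘ i = fun _ => f (i t) := funext fun t' => hi.const t' t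
    rw [e2] at e1
    have e3 : mfderiv 𝓘(ℂ, Cm d) 𝓘(ℂ, Cm p) (fun _ : F => f (i t)) t = 0 := mfderiv_const
    rw [e3] at e1
    have e4 := congrArg (fun T : Cm d →L[ℂ] Cm p => T ξ) e1
    exact e4.symm
  set A : Cm n →ₗ[ℂ] Cm p := ((dM (Cm n) (Cm p) f (i t) : Cm n →L[ℂ] Cm p) : Cm n →ₗ[ℂ] Cm p) with hA
  set B : Cm d →ₗ[ℂ] Cm n := ((dM (Cm d) (Cm n) i t : Cm d →L[ℂ] Cm n) : Cm d →ₗ[ℂ] Cm n) with hB
  have hAs : Function.Surjective A := hi.submersive t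
  have hBi : Function.Injective B := hi.immersive t
  have hle : LinearMap.range B ≤ LinearMap.ker A := by
    rintro _ ⟨ξ, rfl⟩
    exact h0 ξ
  have h1 := LinearMap.finrank_range_add_finrank_ker A
  rw [LinearMap.range_eq_top.2 hAs, finrank_top] at h1
  have h2 := LinearMap.finrank_range_of_inj hBi
  have h3 : Module.finrank ℂ (Cm n) = n := by simp
  have h4 : Module.finrank ℂ (Cm p) = p := by simp
  have h5 : Module.finrank ℂ (Cm d) = d := by simp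
  have heq := Submodule.eq_of_le_of_finrank_eq hle (by omega)
  have hmem : v ∈ LinearMap.ker A := hv
  rw [← heq] at hmem
  exact hmem

/-- **The key lemma**: a component of the fixed part covered by contracted rational curves is contracted
on the fibre. -/
theorem degAt_of_rat (ker : KerPart) (clos : ClosPart) (dens : DensPart) (hn : n = p + d)
    {j : Z → X} (hj : J.IsBigOpen (Cm n) j) {f : Z → Y} (hf : ContMDiff 𝓘(ℂ, Cm n) 𝓘(ℂ, Cm p) ω f)
    {Δ : Set X → ℝ} (hΔ : J.IsSNC (Cm n) Δ) {m₁ : ℕ} (hm₁ : 0 < m₁) {K : Set X → ℕ}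
    (hK : ∀ D, (K D : ℝ) = m₁ * Δ D) {τ : Ten n (m₁ * p) X} (hτ : IsTenP (m₁ * p) K τ)
    {O : Set Y} (hO : IsOpen O) (hOd : Dense O)
    (hval : ∀ z, f z ∈ O → (∀ D, Δ D ≠ 0 → j z ∉ D) → ∃ s : ℂ, s ≠ 0 ∧
      ∀ e, At e (j z) → ∀ I, τ e (e (j z)) I = s * tT f m₁ (fun z => e (j z)) I z)
    {i : F → Z} (hi : IsSmoothFibre (Cm n) (Cm p) (Cm d) f i) {β : FormM n X}
    (hβ : H167.IsSemiKahler β) {N : ℕ} {H : Fin N → X → ℂ} {g : X → ℂ} {w : F}
    (hg : J.HolAt (Cm n) g (j (i w))) (hH : ∀ b, J.HolAt (Cm n) (H b) (j (i w)))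
    (hgF : J.dif (Cm d) (fun s => g (j (i s))) w ≠ 0) (h0 : g (j (i w)) = 0)
    (hr : ∀ᶠ z in 𝓝 (j (i w)), g z = 0 → ∃ᶠ z' in 𝓝 z, g z' = 0 ∧ RatAt n Δ H g β z') :
    DegAt d 0 (fun b s => H b (j (i s))) (fun s => g (j (i s)))
      (D.pullM (fun s => j (i s)) β) w := by
  have hjh : ∀ z, HolM (Cm n) (Cm n) j z := fun z => hj.1 z
  have hj₂ : ∀ z, Function.Injective (dM (Cm n) (Cm n) j z) := hj.2.2.1
  have hfh : ∀ z, HolM (Cm n) (Cm p) f z := fun z => hf z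
  have hih : ∀ t, HolM (Cm d) (Cm n) i t := fun t => hi.hol t
  have hcl := GM.IsSemiKahler.isClosedForm hβ
  have hιh : ∀ t, HolM (Cm d) (Cm n) (fun s => j (i s)) t := fun t =>
    ContMDiffAt.comp t (hjh (i t)) (hih t)
  have hdι : ∀ t (ξ : Cm d), dM (Cm d) (Cm n) (fun s => j (i s)) t ξ =
      dM (Cm n) (Cm n) j (i t) (dM (Cm d) (Cm n) i t ξ) := by
    intro t ξ
    have e1 := mfderiv_comp t (I := 𝓘(ℂ, Cm d)) (I' := 𝓘(ℂ, Cm n)) (I'' := 𝓘(ℂ, Cm n))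
      (ContMDiffAt.mdifferentiableAt (hjh (i t)) (by simp))
      (ContMDiffAt.mdifferentiableAt (hih t) (by simp))
    exact congrArg (fun T : Cm d →L[ℂ] Cm n => T ξ) e1
  have hdif : ∀ (G : X → ℂ), HolAt (Cm n) G (j (i w)) → ∀ ξ : Cm d,
      dif (Cm d) (fun s => G (j (i s))) w ξ =
        dif (Cm n) G (j (i w)) (dM (Cm n) (Cm n) j (i w) (dM (Cm d) (Cm n) i w ξ)) := by
    intro G hG ξ
    have e1 := dV_comp (E := Cm d) (E' := Cm n) (h := G) (f := fun s => j (i s)) (x := w) hG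
      (hιh w)
    have e2 := congrArg (fun T : Cm d →L[ℂ] ℂ => T ξ) e1
    rw [← hdι]
    exact e2
  have hjs : ∀ z (u : Cm n), ∃ v, dM (Cm n) (Cm n) j z v = u := by
    intro z u
    have h1 : Function.Surjective (dM (Cm n) (Cm n) j z : Cm n →ₗ[ℂ] Cm n) :=
      LinearMap.injective_iff_surjective.1 (hj₂ z)
    exact h1 u
  -- transversality at `i w`
  have hT0 : Trans n p j f g (i w) := by
    intro y a
    obtain ⟨v₀, hv₀⟩ : ∃ v₀ : Cm n, dM (Cm n) (Cm p) f (i w) v₀ = y := hi.submersive w y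
    obtain ⟨ξ, hξ⟩ : ∃ ξ, dif (Cm d) (fun s => g (j (i s))) w ξ ≠ 0 := by
      by_contra hcon
      push Not at hcon
      exact hgF (ContinuousLinearMap.ext hcon)
    rw [hdif g hg ξ] at hξ
    have hfi : dM (Cm n) (Cm p) f (i w) (dM (Cm d) (Cm n) i w ξ) = 0 := by
      have e1 := mfderiv_comp w (I := 𝓘(ℂ, Cm d)) (I' := 𝓘(ℂ, Cm n)) (I'' := 𝓘(ℂ, Cm p))
        (ContMDiffAt.mdifferentiableAt (hfh (i w)) (by simp))
        (ContMDiffAt.mdifferentiableAt (hih w) (by simp))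
      have e2 : f ∘ i = fun _ => f (i w) := funext fun t' => hi.const t' w
      rw [e2] at e1
      have e3 : mfderiv 𝓘(ℂ, Cm d) 𝓘(ℂ, Cm p) (fun _ : F => f (i w)) w = 0 := mfderiv_const
      rw [e3] at e1
      exact (congrArg (fun T : Cm d →L[ℂ] Cm p => T ξ) e1).symm
    set lam₀ : ℂ := (a - dif (Cm n) g (j (i w)) (dM (Cm n) (Cm n) j (i w) v₀)) /
      dif (Cm n) g (j (i w)) (dM (Cm n) (Cm n) j (i w) (dM (Cm d) (Cm n) i w ξ)) with hlam
    refine ⟨v₀ + lam₀ • dM (Cm d) (Cm n) i w ξ, ?_, ?_⟩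
    · rw [map_add, map_smul, hfi, smul_zero, add_zero]
      exact hv₀
    · rw [map_add, map_smul, map_add, map_smul, smul_eq_mul, hlam, div_mul_cancel₀ _ hξ]
      ring
  have hTev := trans_open hjh hfh hg hT0
  have hker : KerAt p j f H g β (i w) := by
    refine clos n p X Z Y j hj f hf β hcl (i w) N H g hg hH ?_
    have h1 := dens n p X Z Y j hj f hf g (i w) hg h0 (fun y => hT0 y 0) (by
      intro hcon
      obtain ⟨v, -, hv⟩ := hT0 0 1
      rw [hcon] at hv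
      exact zero_ne_one hv) O hO hOd
    have h2 : ∀ᶠ z' in 𝓝 (i w), (g (j z') = 0 → ∃ᶠ x' in 𝓝 (j z'), g x' = 0 ∧
        RatAt n Δ H g β x') ∧ ∀ᶠ z'' in 𝓝 z', Trans n p j f g z'' :=
      ((hjh (i w)).continuousAt.eventually hr).and (eventually_eventually_nhds.2 hTev)
    intro hcon
    have hcon' := eventually_eventually_nhds.2 hcon
    obtain ⟨z', ⟨⟨hz1, hz2⟩, hz3, hz4⟩, hz5⟩ := ((h1.and_eventually h2).and_eventually hcon').exists
    have h3 := hz3 hz1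
    rw [← hj.2.1.map_nhds_eq z', frequently_map] at h3
    have h4 : ∀ᶠ z'' in 𝓝 z', f z'' ∈ O := (hfh z').continuousAt.eventually (hO.mem_nhds hz2)
    obtain ⟨z'', ⟨⟨⟨hg0, hrat⟩, hT⟩, hfO⟩, hnot⟩ :=
      (((h3.and_eventually hz4).and_eventually h4).and_eventually hz5).exists
    apply hnot
    obtain ⟨q, c, c', v₀, hc, hc0, hcΔ, hfill, hcv, hv0, hgv, hPk, hβv⟩ := hrat
    obtain ⟨v, hv⟩ := hjs z'' v₀
    refine ⟨hg0, v, v₀, hv, hv0, hgv, hPk, hβv, ?_⟩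
    obtain ⟨s, hs, hsv⟩ := hval z'' hfO hcΔ
    refine ker n p q m₁ X Z Y j hj f hf Δ hΔ K hK hm₁ τ hτ c c' hc (fun D hD => by
      rw [hc0]; exact hcΔ D hD) z'' hc0 s hs hsv (fun y => ?_) v (hv.trans hcv.symm)
    obtain ⟨v', hv1, hv2⟩ := hT y 0
    obtain ⟨a, ha⟩ := hfill _ hv2
    exact ⟨v', a, hv1, ha.symm⟩
  obtain ⟨-, v, w₁, hvw, hw₁, hgw, hPw, hβw, hfv⟩ := hker
  have hvw' : dM (Cm n) (Cm n) j (i w) v = w₁ := hvw
  obtain ⟨ξ, hξ⟩ := ker_fibre hn hfh hi w hfv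
  have hξ0 : ξ ≠ 0 := by
    rintro rfl
    rw [map_zero] at hξ
    rw [← hξ, map_zero] at hvw'
    exact hw₁ hvw'.symm
  have hwξ : dM (Cm n) (Cm n) j (i w) (dM (Cm d) (Cm n) i w ξ) = w₁ := by
    rw [hξ]
    exact hvw'
  refine Or.inl ⟨ξ, hξ0, ?_, ?_, ?_⟩
  · show dif (Cm d) (fun s => g (j (i s))) w ξ = 0
    rw [hdif g hg ξ, hwξ]
    exact hgw
  · intro b b'
    show H b (j (i w)) * dif (Cm d) (fun s => H b' (j (i s))) w ξ =
      H b' (j (i w)) * dif (Cm d) (fun s => H b (j (i s))) w ξ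
    rw [hdif _ (hH b') ξ, hdif _ (hH b) ξ, hwξ]
    exact hPw b b'
  · rw [H956.pullM_eq (f := fun s => j (i s)) hcl.form (hιh w) (H956.at_chartAt (n := d) w)
      (H956.at_chartAt (n := n) (j (i w)))]
    rw [H776.KD.ker_pull (hβ.posSemidef _ _ (H956.at_chartAt (n := n) (j (i w))))]
    have h1 := H956.mfderiv_eq_jacF (hιh w) ξ
    have h2 : (D.jacF (fun s => j (i s)) (chartAt (Cm d) w) (chartAt (Cm n) (j (i w))) w).mulVec ξ =
        w₁ := by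
      rw [← hwξ, ← hdι]
      exact h1.symm
    rw [h2]
    exact hβw

end Vale.Agent.P281.H167.RC
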