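import Vale.Agent.P281.H167.RC.E2

/-! P281, theorem RC, row E: the hypothesis on the fibre from the rational curves. -/

open scoped Manifold ContDiff Topology ComplexOrder
open Set Filter Vale.Agent.P272.K Vale.Agent.P299
open Vale.Agent.P272.K.INT (IsClosedForm)
open Vale.Agent.P299.D (Ten tenPull FormM)

noncomputable section

namespace Vale.Agent.P281.H167.RC

open Vale.Agent.P281 Vale.Agent.P281.MF Vale.Agent.P281.ISO
open Vale.Agent.P281.H167 Vale.Agent.P281.H713 Vale.Agent.P281.H713.SA Vale.Agent.P281.H716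

/-- **Row E**: the hypothesis on the fibre follows from the rational curves, if a section of
`m₁ (K_Y + B)` does not vanish. -/
theorem goodFix_of_rat (ker : KerPart) (clos : ClosPart) (dens : DensPart) {n p d : ℕ}
    (hn : n = p + d) {X Z Y F : Type} [TopologicalSpace X] [T2Space X]
    [ChartedSpace (Cm n) X] [IsManifold 𝓘(ℂ, Cm n) ω X]
    [TopologicalSpace Z] [ChartedSpace (Cm n) Z] [IsManifold 𝓘(ℂ, Cm n) ω Z]
    [TopologicalSpace Y] [ChartedSpace (Cm p) Y] [IsManifold 𝓘(ℂ, Cm p) ω Y]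
    [TopologicalSpace F] [ChartedSpace (Cm d) F] [IsManifold 𝓘(ℂ, Cm d) ω F]
    {j : Z → X} (hj : J.IsBigOpen (Cm n) j) {f : Z → Y} (hf : ContMDiff 𝓘(ℂ, Cm n) 𝓘(ℂ, Cm p) ω f)
    {Δ : Set X → ℝ} (hΔ : J.IsSNC (Cm n) Δ) {m₁ : ℕ} (hm₁ : 0 < m₁) {K : Set X → ℕ}
    (hK : ∀ D, (K D : ℝ) = m₁ * Δ D) {τ : Ten n (m₁ * p) X} (hτ : IsTenP (m₁ * p) K τ)
    {O : Set Y} (hO : IsOpen O) (hOd : Dense O)
    (hval : ∀ z, f z ∈ O → (∀ D, Δ D ≠ 0 → j z ∉ D) → ∃ s : ℂ, s ≠ 0 ∧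
      ∀ e, At e (j z) → ∀ I, τ e (e (j z)) I = s * tT f m₁ (fun z => e (j z)) I z)
    {i : F → Z} (hi : IsSmoothFibre (Cm n) (Cm p) (Cm d) f i) {β : FormM n X}
    (hβ : H167.IsSemiKahler β) {m : ℕ} {k : Set X → ℕ} {N : ℕ} {S : Fin N → X → ℂ}
    (hrat : IsRatFix n d m k Δ (fun t => j (i t)) S β) :
    ∃ βF : FormM d F, H167.IsSemiKahler βF ∧ HasRankP d 0 k (fun t => j (i t)) S ∧
      IsGoodFixP n d m 0 k (fun t => j (i t)) S βF := by
  obtain ⟨⟨t₀, ht₀, b₀, hb₀⟩, hdense, hloc⟩ := hrat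
  have hjh : ∀ z, HolM (Cm n) (Cm n) j z := fun z => hj.1 z
  have hj₂ : ∀ z, Function.Injective (dM (Cm n) (Cm n) j z) := hj.2.2.1
  have hih : ∀ t, HolM (Cm d) (Cm n) i t := fun t => hi.hol t
  have hιh : ∀ t, HolM (Cm d) (Cm n) (fun s => j (i s)) t := fun t =>
    ContMDiffAt.comp t (hjh (i t)) (hih t)
  have hι : ContMDiff 𝓘(ℂ, Cm d) 𝓘(ℂ, Cm n) ω fun s => j (i s) := fun t => hιh t
  have hιi : ∀ t, Function.Injective (mfderiv 𝓘(ℂ, Cm d) 𝓘(ℂ, Cm n) (fun s => j (i s)) t) := by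
    intro t
    have e1 := mfderiv_comp t (I := 𝓘(ℂ, Cm d)) (I' := 𝓘(ℂ, Cm n)) (I'' := 𝓘(ℂ, Cm n))
      (ContMDiffAt.mdifferentiableAt (hjh (i t)) (by simp))
      (ContMDiffAt.mdifferentiableAt (hih t) (by simp))
    have e2 : mfderiv 𝓘(ℂ, Cm d) 𝓘(ℂ, Cm n) (fun s => j (i s)) t =
      (mfderiv 𝓘(ℂ, Cm n) 𝓘(ℂ, Cm n) j (i t)).comp (mfderiv 𝓘(ℂ, Cm d) 𝓘(ℂ, Cm n) i t) := e1
    rw [e2]
    exact (hj₂ (i t)).comp (hi.immersive t)
  refine ⟨D.pullM (fun s => j (i s)) β, isSemiKahler_pull hβ hι hιi hdense,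
    ⟨t₀, b₀, Fin.elim0, ht₀, hb₀, fun y => ⟨0, funext fun b => b.elim0⟩⟩, fun t => ?_⟩
  obtain ⟨T, e, r, g, a, H, hkT, hT, hg, hH, hne, hev⟩ := hloc t
  refine ⟨T, e, r, fun l s => g l (j (i s)), a, fun b s => H b (j (i s)), hkT, hT, fun l =>
    ⟨ContMDiffAt.comp t (hg l).1 (hιh t), (hg l).2⟩, fun b => ContMDiffAt.comp t (hH b) (hιh t),
    hne, ?_⟩
  have hc : ContinuousAt (fun s => j (i s)) t := (hιh t).continuousAt
  have h1 := hc.eventually hev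
  have h2 := hc.eventually (eventually_eventually_nhds.2 hev)
  have h3 : ∀ᶠ s in 𝓝 t, ∀ l, J.HolAt (Cm n) (g l) (j (i s)) :=
    hc.eventually (eventually_all.2 fun l => HolV.eventually (E := Cm n) (hg l).1)
  have h4 : ∀ᶠ s in 𝓝 t, ∀ b, J.HolAt (Cm n) (H b) (j (i s)) :=
    hc.eventually (eventually_all.2 fun b => HolV.eventually (E := Cm n) (hH b))
  have h5 : ∀ᶠ s in 𝓝 t, ∀ l, J.dif (Cm d) (fun s => g l (j (i s))) s ≠ 0 := by
    rw [eventually_all]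
    intro l
    have hgl : HolV (Cm d) (fun s => g l (j (i s))) t := ContMDiffAt.comp t (hg l).1 (hιh t)
    have hsurj : Function.Surjective (dV (Cm d) (fun s => g l (j (i s))) t) := by
      obtain ⟨ξ, hξ⟩ : ∃ ξ, dV (Cm d) (fun s => g l (j (i s))) t ξ ≠ 0 := by
        by_contra hcon
        push Not at hcon
        exact (hg l).2 (ContinuousLinearMap.ext hcon)
      intro y
      refine ⟨(y / dV (Cm d) (fun s => g l (j (i s))) t ξ) • ξ, ?_⟩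
      rw [map_smul, smul_eq_mul, div_mul_cancel₀ _ hξ]
    filter_upwards [surj_dV_open hgl hsurj] with s hs hcon
    obtain ⟨ξ, hξ⟩ := hs 1
    have hcon' : dV (Cm d) (fun s => g l (j (i s))) s = 0 := hcon
    rw [hcon'] at hξ
    exact zero_ne_one hξ
  filter_upwards [h1, h2, h3, h4, h5] with s k1 k2 k3 k4 k5
  refine ⟨k1.1, fun l hl => ?_⟩
  exact degAt_of_rat ker clos dens hn hj hf hΔ hm₁ hK hτ hO hOd hval hi hβ (k3 l) k4 (k5 l) hl
    (k2.mono fun z hz => hz.2 l)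

end Vale.Agent.P281.H167.RC
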