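import Vale.Agent.P281.H713.TL.Iface
import Vale.Agent.P281.H167.RC.Iface

/-! P281, theorem RC over theorem TL: the tensor of one section, and the final theorem, as
propositions. -/

open scoped Manifold ContDiff Topology ComplexOrder
open Set Filter Vale.Agent.P281 Vale.Agent.P272.K Vale.Agent.P299
open Vale.Agent.P299.D (Ten tenPull FormM)

noncomputable section

namespace Vale.Agent.P281.H167.RC

open Vale.Agent.P281.H713 Vale.Agent.P281.H713.SA Vale.Agent.P281.H716 Vale.Agent.P281.H167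
open Vale.Agent.P281.H713.TL

/-- the tensor of the power of the pull-back of a section -/
def TensT : Prop := ∀ (n p : ℕ) (X Z Y : Type)
  [TopologicalSpace X] [T2Space X] [CompactSpace X] [ConnectedSpace X]
  [ChartedSpace (Cm n) X] [IsManifold 𝓘(ℂ, Cm n) ω X]
  [TopologicalSpace Z] [ChartedSpace (Cm n) Z] [IsManifold 𝓘(ℂ, Cm n) ω Z]
  [TopologicalSpace Y] [T2Space Y] [ConnectedSpace Y]
  [ChartedSpace (Cm p) Y] [IsManifold 𝓘(ℂ, Cm p) ω Y]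
  (j : Z → X) (_ : J.IsBigOpen (Cm n) j) (f : Z → Y) (_ : ContMDiff 𝓘(ℂ, Cm n) 𝓘(ℂ, Cm p) ω f)
  (_ : ∃ z, Function.Surjective (mfderiv 𝓘(ℂ, Cm n) 𝓘(ℂ, Cm p) f z))
  (𝒢 : Set (Set Y)) (_ : 𝒢.Finite) (_ : ∀ G ∈ 𝒢, J.IsPrime (Cm p) G)
  (Δ : Set X → ℝ) (_ : J.IsSNC (Cm n) Δ)
  (m : ℕ) (_ : 0 < m) (K₀ : Set X → ℕ) (_ : ∀ D, (K₀ D : ℝ) ≤ m * Δ D)
  (σ : Y → ℂ) (_ : IsPullSection (n := n) (p := p) m K₀ 𝒢 j f σ)
  (l : ℕ) (_ : 0 < l) (K : Set X → ℕ) (_ : ∀ D, (K D : ℝ) = (m * l : ℕ) * Δ D),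
  ∃ τ : Ten n (m * l * p) X, IsTenP (m * l * p) K τ ∧
    ∀ e z, At e (j z) → f z ∉ ⋃₀ 𝒢 → (∀ D, Δ D ≠ 0 → j z ∉ D) →
      ∀ I, τ e (e (j z)) I = σ (f z) ^ l * tT f (m * l) (fun z => e (j z)) I z

/-- **Theorem RC**: theorem TL with the hypothesis on the fibre replaced by rational curves. -/
def MainPartR : Prop := ∀ (n p d : ℕ) (_ : n = p + d) (X Z Y F : Type)
  [TopologicalSpace X] [T2Space X] [CompactSpace X] [ConnectedSpace X]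
  [ChartedSpace (Cm n) X] [IsManifold 𝓘(ℂ, Cm n) ω X]
  [TopologicalSpace Z] [ChartedSpace (Cm n) Z] [IsManifold 𝓘(ℂ, Cm n) ω Z]
  [TopologicalSpace Y] [T2Space Y] [ConnectedSpace Y]
  [ChartedSpace (Cm p) Y] [IsManifold 𝓘(ℂ, Cm p) ω Y]
  [TopologicalSpace F] [T2Space F] [CompactSpace F] [ConnectedSpace F]
  [ChartedSpace (Cm d) F] [IsManifold 𝓘(ℂ, Cm d) ω F]
  (χ : Chart n X → Cm n → Matrix (Fin n) (Fin n) ℂ) (_ : IsKahler χ)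
  (Δ Δ₀ : Set X → ℝ) (_ : J.IsSNC (Cm n) Δ) (_ : ∀ D, ∃ q : ℚ, Δ₀ D = q ∧ 0 ≤ q ∧ q < 1)
  (_ : ∀ D, Δ₀ D ≤ Δ D) (t : ℝ) (_ : 0 < t) (_ : t ≤ 1)
  (m N : ℕ) (_ : 0 < m) (k : Set X → ℕ) (_ : ∀ D, (k D : ℝ) = m * Δ₀ D) (S : Fin N → X → ℂ)
  (_ : ∀ b, J.IsSection (Cm n) (fun (D : Set X) z g => J.IsLocalEq (Cm n) D g z) m k (S b))
  (m' N' : ℕ) (_ : 0 < m') (k' : Set X → ℕ)
  (_ : ∀ D, (k' D : ℝ) = m' * (Δ₀ D + t * (Δ D - Δ₀ D))) (S' : Fin N' → X → ℂ)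
  (_ : ∀ b, J.IsSection (Cm n) (fun (D : Set X) z g => J.IsLocalEq (Cm n) D g z) m' k' (S' b))
  (j : Z → X) (_ : J.IsBigOpen (Cm n) j) (f : Z → Y) (_ : ContMDiff 𝓘(ℂ, Cm n) 𝓘(ℂ, Cm p) ω f)
  (i : F → Z) (_ : IsSmoothFibre (Cm n) (Cm p) (Cm d) f i)
  (_ : ∀ D, Δ D ≠ 0 → ∃ t, j (i t) ∉ D)
  (ν : ℕ) (_ : HasRankP n ν (k + k') id (KL.prodF S S'))
  (β : Chart n X → Cm n → Matrix (Fin n) (Fin n) ℂ) (_ : IsSemiKahler β)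
  (_ : KL.IsGoodFix2 m m' ν k k' S S' β)
  (_ : (∃ (νF : ℕ) (βF : Chart d F → Cm d → Matrix (Fin d) (Fin d) ℂ),
      HasRankP d νF (k + k') (fun t => j (i t)) (KL.prodF S S') ∧ IsSemiKahler βF ∧
      IsGoodFixP n d (m + m') νF (k + k') (fun t => j (i t)) (KL.prodF S S') βF) ∨
    ∃ βR : Chart n X → Cm n → Matrix (Fin n) (Fin n) ℂ, IsSemiKahler βR ∧
      IsRatFix n d (m + m') (k + k') Δ (fun t => j (i t)) (KL.prodF S S') βR),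
  J.kod (Cm d) (fun (D : Set X) t g => ∃ e, J.IsLocalEq (Cm n) D e (j (i t)) ∧
      ∀ᶠ t' in 𝓝 t, g t' = e (j (i t'))) Δ + kodF (n := n) (p := p) Δ j f ≤
    J.kod (Cm n) (fun (D : Set X) x g => J.IsLocalEq (Cm n) D g x) Δ

end Vale.Agent.P281.H167.RC
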