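import Vale.Agent.P281.H167.RC.Iface
import Vale.Agent.P281.H776.KD.FK
import Vale.Agent.P281.H167.SA.K
import Vale.Agent.P281.H167.GM.M6

/-! P281, theorem RC, row E: the pull-back of a semi-Kähler form; openness of submersivity. -/

open scoped Manifold ContDiff Topology ComplexOrder
open Set Filter Vale.Agent.P272.K Vale.Agent.P299
open Vale.Agent.P272.K.INT (IsClosedForm)

noncomputable section

namespace Vale.Agent.P281.H167.RC

open Vale.Agent.P281 Vale.Agent.P281.MF Vale.Agent.P281.ISO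
open Vale.Agent.P281.H167 Vale.Agent.P281.H713 Vale.Agent.P281.H713.SA Vale.Agent.P281.H716

/-- the pull-back of a semi-Kähler form by an immersion, positive at the points of a dense set -/
theorem isSemiKahler_pull {n d : ℕ} {X F : Type} [TopologicalSpace X] [ChartedSpace (Cm n) X]
    [IsManifold 𝓘(ℂ, Cm n) ω X] [TopologicalSpace F] [ChartedSpace (Cm d) F]
    [IsManifold 𝓘(ℂ, Cm d) ω F] {β : D.FormM n X} (hβ : H167.IsSemiKahler β) {ι : F → X}
    (hι : ContMDiff 𝓘(ℂ, Cm d) 𝓘(ℂ, Cm n) ω ι)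
    (hinj : ∀ t, Function.Injective (mfderiv 𝓘(ℂ, Cm d) 𝓘(ℂ, Cm n) ι t))
    (hd : Dense {t | ∃ e, At e (ι t) ∧ (β e (e (ι t))).PosDef}) :
    H167.IsSemiKahler (D.pullM ι β : D.FormM d F) := by
  have hcl := GM.IsSemiKahler.isClosedForm hβ
  have hp := H776.KD.isClosedForm_pullM hcl hι
  have hι' : ∀ t, ContMDiffAt 𝓘(ℂ, Cm d) 𝓘(ℂ, Cm n) ω ι t := fun t => hι t
  refine ⟨hp.smooth, ?_, hp.form, fun e x he i j k => hp.closed e x he k i j, ?_⟩
  · intro e t he
    have hE := H956.at_chartAt (n := n) (ι t)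
    rw [H956.pullM_eq hcl.form (hι' t) he hE]
    exact H776.KD.psd_pull (hβ.posSemidef _ _ hE)
  · refine hd.mono ?_
    rintro t ⟨E, hE, hpos⟩
    have he := H956.at_chartAt (n := d) t
    refine ⟨chartAt (Cm d) t, he, ?_⟩
    rw [H956.pullM_eq hcl.form (hι' t) he hE]
    have himm := SA.immersive_of_mfderiv hι hinj
    set J := D.jacF ι (chartAt (Cm d) t) E t with hJ
    have h1 : J.transpose = (J.map (starRingEnd ℂ)).conjTranspose := by
      ext i j
      simp [Matrix.conjTranspose_apply]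
    rw [h1]
    refine Matrix.PosDef.conjTranspose_mul_mul_same hpos ?_
    intro u u' huu
    have h2 : J.mulVec (star u - star u') = 0 := by
      have h3 : (J.map (starRingEnd ℂ)).mulVec (u - u') = 0 := by
        rw [Matrix.mulVec_sub, sub_eq_zero]
        exact huu
      have h4 := congrArg star h3
      rw [star_zero] at h4
      rw [← h4, ← star_sub]
      funext p
      simp [Matrix.mulVec, dotProduct]
    have h5 := himm (chartAt (Cm d) t) E t he hE _ h2
    have h6 := congrArg star (sub_eq_zero.1 h5)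
    simpa using h6

/-- submersivity is open -/
theorem surj_dV_open {n : ℕ} {Z : Type} [TopologicalSpace Z] [ChartedSpace (Cm n) Z]
    [IsManifold 𝓘(ℂ, Cm n) ω Z] {V : Type} [NormedAddCommGroup V] [NormedSpace ℂ V]
    [FiniteDimensional ℂ V] {h : Z → V} {z : Z} (hh : HolV (Cm n) h z)
    (hs : Function.Surjective (dV (Cm n) h z)) :
    ∀ᶠ w in 𝓝 z, Function.Surjective (dV (Cm n) h w) := by
  have : CompleteSpace V := FiniteDimensional.complete ℂ V
  set e : Chart n Z := chartAt (Cm n) z with he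
  have hAt : At e z := AMP.at_chartAt z
  have hu := isUnit_at hAt
  set A : Z → Cm n →L[ℂ] V := fun w => (dV (Cm n) h w).comp (Ring.inverse (dV (Cm n) (e : Z → Cm n) w))
    with hA
  have hAc : ContinuousAt A z := (holV_quot hh (holV_at hAt) hu).continuousAt
  have hAz : Function.Surjective (A z) := by
    intro y
    obtain ⟨v, hv⟩ := hs y
    refine ⟨dV (Cm n) (e : Z → Cm n) z v, ?_⟩
    have h4 : (Ring.inverse (dV (Cm n) (e : Z → Cm n) z)) * (dV (Cm n) (e : Z → Cm n) z) = 1 :=
      Ring.inverse_mul_cancel _ hu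
    have h5 := congrArg (fun T : Cm n →L[ℂ] Cm n => T v) h4
    show dV (Cm n) h z (Ring.inverse (dV (Cm n) (e : Z → Cm n) z)
      (dV (Cm n) (e : Z → Cm n) z v)) = y
    have h6 : Ring.inverse (dV (Cm n) (e : Z → Cm n) z) (dV (Cm n) (e : Z → Cm n) z v) = v := h5
    rw [h6]
    exact hv
  obtain ⟨T, hT⟩ := LinearMap.exists_rightInverse_of_surjective
    ((A z : Cm n →L[ℂ] V) : Cm n →ₗ[ℂ] V) (LinearMap.range_eq_top.2 hAz)
  set T' : V →L[ℂ] Cm n := LinearMap.toContinuousLinearMap T with hT'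
  have h1 : (A z).comp T' = 1 := by
    refine ContinuousLinearMap.ext fun y => ?_
    exact LinearMap.congr_fun hT y
  have h2 : ContinuousAt (fun w => (A w).comp T') z := hAc.clm_comp continuousAt_const
  have h3 : ∀ᶠ w in 𝓝 z, IsUnit ((A w).comp T') := by
    refine h2.eventually (Units.isOpen.mem_nhds ?_)
    show IsUnit ((A z).comp T')
    rw [h1]
    exact isUnit_one
  filter_upwards [h3] with w hw y
  obtain ⟨U, hU⟩ := hw
  have h5 : ((A w).comp T') * (↑U⁻¹ : V →L[ℂ] V) = 1 := by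
    rw [← hU]
    exact U.mul_inv
  have h6 := congrArg (fun T : V →L[ℂ] V => T y) h5
  exact ⟨Ring.inverse (dV (Cm n) (e : Z → Cm n) w) (T' ((↑U⁻¹ : V →L[ℂ] V) y)), h6⟩

end Vale.Agent.P281.H167.RC
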