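import Vale.Agent.P281.H167.KG.Iface

/-! P281, theorem RC: the hypothesis on the fibre is automatic if the components of the fixed part are
covered by contracted rational curves; definitions of the final statement. -/

namespace Vale.Agent.P281.H167

open scoped Manifold ContDiff Topology ComplexOrder
open Set Filter Vale.Agent.P281.J Vale.Agent.P272.K

section

variable {X F : Type} [TopologicalSpace X] [TopologicalSpace F]

/-- The curve `s ↦ c (s, 0)` meets the divisor `D` at `s = t` with multiplicity `l`. -/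
def HasOrd (n : ℕ) [ChartedSpace (Cm n) X] {q : ℕ} (D : Set X) (c : ℂ × Cm q → X) (t : ℂ) (l : ℕ) :
    Prop :=
  ∃ (g : X → ℂ) (u : ℂ → ℂ), IsLocalEq (Cm n) D g (c (t, 0)) ∧ AnalyticAt ℂ u t ∧ u t ≠ 0 ∧
    ∀ᶠ s in 𝓝 t, g (c (s, 0)) = (s - t) ^ l * u s

/-- `c (t, u)`, `t ∈ ℂ ∪ {∞}`, `u ∈ ℂ^q` close to `0`, is a holomorphic family of rational curves in
`X` (near `t = ∞` it is `c' (1/t, u)`), and `Δ · C < 2`, where `C` is the curve `u = 0` of the family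
(`l D t` and `l' D` are the intersection numbers of `D` and `C` at the points `t` and `∞`). -/
structure IsRatCurve (n q : ℕ) [ChartedSpace (Cm n) X] (Δ : Set X → ℝ) (c c' : ℂ × Cm q → X) :
    Prop where
  hol : ∀ t, ContMDiffAt 𝓘(ℂ, ℂ × Cm q) 𝓘(ℂ, Cm n) ω c (t, 0)
  hol' : ContMDiffAt 𝓘(ℂ, ℂ × Cm q) 𝓘(ℂ, Cm n) ω c' (0, 0)
  glue : ∀ t, t ≠ 0 → ∀ᶠ w in 𝓝 ((t, 0) : ℂ × Cm q), c w = c' (w.1⁻¹, w.2)
  deg : ∃ (Q : Finset ℂ) (l : Set X → ℂ → ℕ) (l' : Set X → ℕ),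
    (∀ D, Δ D ≠ 0 → (∀ t, t ∉ Q → l D t = 0) ∧ (∀ t, HasOrd n D c t (l D t)) ∧
      HasOrd n D c' 0 (l' D)) ∧
    ∑ᶠ D, Δ D * (∑ t ∈ Q, (l D t : ℝ) + l' D) < 2

/-- Through the point `x` of the hypersurface `g = 0`, not on `Δ`, passes a rational curve `C` with
`Δ · C < 2`, a member of a family of rational curves filling `g = 0` (to first order at `x`), whose
tangent at `x` is in `g = 0` and in the kernels of `β` and of the differential of the map `[H]`. -/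
def RatAt (n : ℕ) [ChartedSpace (Cm n) X] (Δ : Set X → ℝ) {N : ℕ} (H : Fin N → X → ℂ) (g : X → ℂ)
    (β : Chart n X → Cm n → Matrix (Fin n) (Fin n) ℂ) (x : X) : Prop :=
  ∃ (q : ℕ) (c c' : ℂ × Cm q → X) (v : Cm n), IsRatCurve n q Δ c c' ∧ c (0, 0) = x ∧
    (∀ D, Δ D ≠ 0 → x ∉ D) ∧
    (∀ w, dif (Cm n) g x w = 0 → ∃ a, mfderiv 𝓘(ℂ, ℂ × Cm q) 𝓘(ℂ, Cm n) c (0, 0) a = w) ∧
    mfderiv 𝓘(ℂ, ℂ × Cm q) 𝓘(ℂ, Cm n) c (0, 0) (1, 0) = v ∧ v ≠ 0 ∧ dif (Cm n) g x v = 0 ∧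
    PKer n H x v ∧ ∀ j, ∑ i, v i * β (chartAt (Cm n) x) (chartAt (Cm n) x x) i j = 0

/-- `S b` are sections of `m K_X + ∑ k(D) D`, `ι : F → X` is the immersion of a fibre, not contained in
the base locus, on a dense subset of which `β > 0`.  Near every point of `F`,
`S b = (∏ g_i ^ a_i) H_b` in a frame of `m K_X + ∑ k(D) D` (`e D` are local equations of the divisors
`D`), where the `H_b` have no common zero and the hypersurfaces `g_i = 0` of `X` are transversal to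
`F`: the fixed divisor is locally `∑ a_i {g_i = 0}`.  Moreover `g_i = 0` is covered by rational curves
contracted by `([H], β)`. -/
def IsRatFix (n d m : ℕ) [ChartedSpace (Cm n) X] [ChartedSpace (Cm d) F] (k : Set X → ℕ)
    (Δ : Set X → ℝ) (ι : F → X) {N : ℕ} (S : Fin N → X → ℂ)
    (β : Chart n X → Cm n → Matrix (Fin n) (Fin n) ℂ) : Prop :=
  (∃ t, (∀ D, k D ≠ 0 → ι t ∉ D) ∧ ∃ b, S b (ι t) ≠ 0) ∧
  Dense {t | ∃ e, At e (ι t) ∧ (β e (e (ι t))).PosDef} ∧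
  ∀ t : F, ∃ (T : Finset (Set X)) (e : Set X → X → ℂ) (r : ℕ) (g : Fin r → X → ℂ)
    (a : Fin r → ℕ) (H : Fin N → X → ℂ),
    (∀ D, k D ≠ 0 → D ∈ T) ∧ (∀ D ∈ T, IsLocalEq (Cm n) D (e D) (ι t)) ∧
    (∀ i, HolAt (Cm n) (g i) (ι t) ∧ dif (Cm d) (fun s => g i (ι s)) t ≠ 0) ∧
    (∀ b, HolAt (Cm n) (H b) (ι t)) ∧ (∃ b, H b (ι t) ≠ 0) ∧
    ∀ᶠ z in 𝓝 (ι t), (∏ D ∈ T, e D z ^ k D ≠ 0 → ∀ b,
      S b z * ∏ D ∈ T, e D z ^ k D = (∏ i, g i z ^ a i) * H b z *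
        ContinuousLinearMap.det (mfderiv 𝓘(ℂ, Cm n) 𝓘(ℂ, Cm n) (chartAt (Cm n) (ι t)) z :
          Cm n →L[ℂ] Cm n) ^ m) ∧
      ∀ i, g i z = 0 → ∃ᶠ z' in 𝓝 z, g i z' = 0 ∧ RatAt n Δ H (g i) β z'

end

end Vale.Agent.P281.H167
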