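import Vale.Agent.P281.H167.RC.Main
import Vale.Agent.P281.H716.KL.Fin
import Vale.Agent.P281.H716.TL.Asm
import Vale.Agent.P281.H498.TL.Fin
import Vale.Agent.P281.H498.TL.TensT
import Vale.Agent.P281.H455.RC.Curve
import Vale.Agent.P281.H156.RC.Clos
import Vale.Agent.P281.H156.RC.Dens

/-! P281: theorems TL and RC, complete. -/

namespace Vale.Agent.P281.H167.RC

open Vale.Agent.P281.H713.TL

/-- **Theorem TL.** -/
theorem mainPartT : MainPartT :=
  H716.TL.mainPartT_of H342.KG.formPartG H368.KG.growthPartG H342.KG.metPartG H368.KG.nullPart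
    H716.KL.corePartLG H498.bridgeT H716.KL.fibPartGL

/-- **Theorem RC.** -/
theorem mainPartR : MainPartR :=
  mainPartR_of H455.RC.curvePart H156.RC.closPart H156.RC.densPart H498.tensT mainPartT

end Vale.Agent.P281.H167.RC
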